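import Vale.Agent.P237.Quant.MidAssembly
import Vale.Agent.P237.Quant.TailData.N30.Rows
import Vale.Agent.P237.Quant.TailData.N31.Rows
import Vale.Agent.P237.Quant.TailData.N32.Rows
import Vale.Agent.P237.Quant.TailData.N33.Rows
import Vale.Agent.P237.Quant.TailData.N34.Rows
import Vale.Agent.P237.Quant.TailData.N35.Rows
import Vale.Agent.P237.Quant.TailData.N36.Rows
import Vale.Agent.P237.Quant.TailData.N37.Rows
import Vale.Agent.P237.Quant.TailData.N38.Rows
import Vale.Agent.P237.Quant.TailData.N39.Rows
import Vale.Agent.P237.Quant.TailData.N40.Rows
import Vale.Agent.P237.Quant.TailData.N41.Rows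
import Vale.Agent.P237.Quant.TailData.N42.Rows

/-!
The tail inequalities in each dimension from 30 to 42. Generated.
-/

namespace Vale.Agent.P237.Quant

/-- The tail inequalities in dimension 30. -/
theorem midTails30 : MidTailsAt 29 :=
  ⟨negRow14_tailAt30,
    fun _ h => absurd h (by omega),
    fun _ h => absurd h (by omega),
    fun _ h => absurd h (by omega),
    fun _ h => absurd h (by omega),
    fun _ _ => posRow30_tailAt30,
    fun h _ => absurd h (by omega),
    fun h _ => absurd h (by omega),
    fun h _ => absurd h (by omega)⟩

/-- The tail inequalities in dimension 31. -/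
theorem midTails31 : MidTailsAt 30 :=
  ⟨negRow14_tailAt31,
    fun _ h => absurd h (by omega),
    fun _ h => absurd h (by omega),
    fun _ h => absurd h (by omega),
    fun _ h => absurd h (by omega),
    fun _ _ => posRow30_tailAt31,
    fun h _ => absurd h (by omega),
    fun h _ => absurd h (by omega),
    fun h _ => absurd h (by omega)⟩

/-- The tail inequalities in dimension 32. -/
theorem midTails32 : MidTailsAt 31 :=
  ⟨negRow14_tailAt32,
    fun _ h => absurd h (by omega),
    fun _ h => absurd h (by omega),
    fun _ h => absurd h (by omega),
    fun _ h => absurd h (by omega),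
    fun _ _ => posRow30_tailAt32,
    fun h _ => absurd h (by omega),
    fun h _ => absurd h (by omega),
    fun h _ => absurd h (by omega)⟩

/-- The tail inequalities in dimension 33. -/
theorem midTails33 : MidTailsAt 32 :=
  ⟨negRow14_tailAt33,
    fun _ h => absurd h (by omega),
    fun _ h => absurd h (by omega),
    fun _ h => absurd h (by omega),
    fun _ h => absurd h (by omega),
    fun _ _ => posRow30_tailAt33,
    fun h _ => absurd h (by omega),
    fun h _ => absurd h (by omega),
    fun h _ => absurd h (by omega)⟩

/-- The tail inequalities in dimension 34. -/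
theorem midTails34 : MidTailsAt 33 :=
  ⟨negRow14_tailAt34,
    fun _ h => absurd h (by omega),
    fun _ h => absurd h (by omega),
    fun _ h => absurd h (by omega),
    fun _ h => absurd h (by omega),
    fun _ _ => posRow30_tailAt34,
    fun h _ => absurd h (by omega),
    fun h _ => absurd h (by omega),
    fun h _ => absurd h (by omega)⟩

/-- The tail inequalities in dimension 35. -/
theorem midTails35 : MidTailsAt 34 :=
  ⟨negRow14_tailAt35,
    fun _ h => absurd h (by omega),
    fun _ h => absurd h (by omega),
    fun _ h => absurd h (by omega),
    fun _ h => absurd h (by omega),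
    fun _ _ => posRow30_tailAt35,
    fun h _ => absurd h (by omega),
    fun h _ => absurd h (by omega),
    fun h _ => absurd h (by omega)⟩

/-- The tail inequalities in dimension 36. -/
theorem midTails36 : MidTailsAt 35 :=
  ⟨negRow14_tailAt36,
    fun _ h => absurd h (by omega),
    fun _ h => absurd h (by omega),
    fun _ h => absurd h (by omega),
    fun _ h => absurd h (by omega),
    fun _ _ => posRow30_tailAt36,
    fun h _ => absurd h (by omega),
    fun h _ => absurd h (by omega),
    fun h _ => absurd h (by omega)⟩

/-- The tail inequalities in dimension 37. -/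
theorem midTails37 : MidTailsAt 36 :=
  ⟨negRow14_tailAt37,
    fun _ h => absurd h (by omega),
    fun _ h => absurd h (by omega),
    fun _ h => absurd h (by omega),
    fun _ h => absurd h (by omega),
    fun _ h => absurd h (by omega),
    fun _ _ => posRow37_tailAt37,
    fun h _ => absurd h (by omega),
    fun h _ => absurd h (by omega)⟩

/-- The tail inequalities in dimension 38. -/
theorem midTails38 : MidTailsAt 37 :=
  ⟨negRow14_tailAt38,
    fun _ h => absurd h (by omega),
    fun _ h => absurd h (by omega),
    fun _ h => absurd h (by omega),
    fun _ h => absurd h (by omega),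
    fun _ h => absurd h (by omega),
    fun _ _ => posRow37_tailAt38,
    fun h _ => absurd h (by omega),
    fun h _ => absurd h (by omega)⟩

/-- The tail inequalities in dimension 39. -/
theorem midTails39 : MidTailsAt 38 :=
  ⟨negRow14_tailAt39,
    fun _ h => absurd h (by omega),
    fun _ h => absurd h (by omega),
    fun _ h => absurd h (by omega),
    fun _ h => absurd h (by omega),
    fun _ h => absurd h (by omega),
    fun _ _ => posRow37_tailAt39,
    fun h _ => absurd h (by omega),
    fun h _ => absurd h (by omega)⟩

/-- The tail inequalities in dimension 40. -/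
theorem midTails40 : MidTailsAt 39 :=
  ⟨negRow14_tailAt40,
    fun _ h => absurd h (by omega),
    fun _ h => absurd h (by omega),
    fun _ h => absurd h (by omega),
    fun _ h => absurd h (by omega),
    fun _ h => absurd h (by omega),
    fun _ _ => posRow37_tailAt40,
    fun h _ => absurd h (by omega),
    fun h _ => absurd h (by omega)⟩

/-- The tail inequalities in dimension 41. -/
theorem midTails41 : MidTailsAt 40 :=
  ⟨negRow14_tailAt41,
    fun _ h => absurd h (by omega),
    fun _ h => absurd h (by omega),
    fun _ h => absurd h (by omega),
    fun _ h => absurd h (by omega),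
    fun _ h => absurd h (by omega),
    fun _ _ => posRow37_tailAt41,
    fun h _ => absurd h (by omega),
    fun h _ => absurd h (by omega)⟩

/-- The tail inequalities in dimension 42. -/
theorem midTails42 : MidTailsAt 41 :=
  ⟨negRow14_tailAt42,
    fun _ h => absurd h (by omega),
    fun _ h => absurd h (by omega),
    fun _ h => absurd h (by omega),
    fun _ h => absurd h (by omega),
    fun _ h => absurd h (by omega),
    fun _ _ => posRow37_tailAt42,
    fun h _ => absurd h (by omega),
    fun h _ => absurd h (by omega)⟩

/-- The tail inequalities for `30 ≤ n ≤ 42`. -/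
theorem midTails_30_42 (k : ℕ) (h₁ : 29 ≤ k) (h₂ : k ≤ 41) : MidTailsAt k := by
  interval_cases k
  · exact midTails30
  · exact midTails31
  · exact midTails32
  · exact midTails33
  · exact midTails34
  · exact midTails35
  · exact midTails36
  · exact midTails37
  · exact midTails38
  · exact midTails39
  · exact midTails40
  · exact midTails41
  · exact midTails42

end Vale.Agent.P237.Quant
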