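import Vale.Agent.P237.Quant.MidAssembly
import Vale.Agent.P237.Quant.TailData.N43.Rows
import Vale.Agent.P237.Quant.TailData.N44.Rows
import Vale.Agent.P237.Quant.TailData.N45.Rows
import Vale.Agent.P237.Quant.TailData.N46.Rows
import Vale.Agent.P237.Quant.TailData.N47.Rows
import Vale.Agent.P237.Quant.TailData.N48.Rows
import Vale.Agent.P237.Quant.TailData.N49.Rows
import Vale.Agent.P237.Quant.TailData.N50.Rows
import Vale.Agent.P237.Quant.TailData.N51.Rows
import Vale.Agent.P237.Quant.TailData.N52.Rows
import Vale.Agent.P237.Quant.TailData.N53.Rows
import Vale.Agent.P237.Quant.TailData.N54.Rows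

/-!
The tail inequalities in each dimension from 43 to 54. Generated.
-/

namespace Vale.Agent.P237.Quant

/-- The tail inequalities in dimension 43. -/
theorem midTails43 : MidTailsAt 42 :=
  ⟨negRow14_tailAt43,
    fun _ h => absurd h (by omega),
    fun _ h => absurd h (by omega),
    fun _ h => absurd h (by omega),
    fun _ h => absurd h (by omega),
    fun _ h => absurd h (by omega),
    fun _ h => absurd h (by omega),
    fun _ _ => posRow43_tailAt43,
    fun h _ => absurd h (by omega)⟩

/-- The tail inequalities in dimension 44. -/
theorem midTails44 : MidTailsAt 43 :=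
  ⟨negRow14_tailAt44,
    fun _ h => absurd h (by omega),
    fun _ h => absurd h (by omega),
    fun _ h => absurd h (by omega),
    fun _ h => absurd h (by omega),
    fun _ h => absurd h (by omega),
    fun _ h => absurd h (by omega),
    fun _ _ => posRow43_tailAt44,
    fun h _ => absurd h (by omega)⟩

/-- The tail inequalities in dimension 45. -/
theorem midTails45 : MidTailsAt 44 :=
  ⟨negRow14_tailAt45,
    fun _ h => absurd h (by omega),
    fun _ h => absurd h (by omega),
    fun _ h => absurd h (by omega),
    fun _ h => absurd h (by omega),
    fun _ h => absurd h (by omega),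
    fun _ h => absurd h (by omega),
    fun _ _ => posRow43_tailAt45,
    fun h _ => absurd h (by omega)⟩

/-- The tail inequalities in dimension 46. -/
theorem midTails46 : MidTailsAt 45 :=
  ⟨negRow14_tailAt46,
    fun _ h => absurd h (by omega),
    fun _ h => absurd h (by omega),
    fun _ h => absurd h (by omega),
    fun _ h => absurd h (by omega),
    fun _ h => absurd h (by omega),
    fun _ h => absurd h (by omega),
    fun _ _ => posRow43_tailAt46,
    fun h _ => absurd h (by omega)⟩

/-- The tail inequalities in dimension 47. -/
theorem midTails47 : MidTailsAt 46 :=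
  ⟨negRow14_tailAt47,
    fun _ h => absurd h (by omega),
    fun _ h => absurd h (by omega),
    fun _ h => absurd h (by omega),
    fun _ h => absurd h (by omega),
    fun _ h => absurd h (by omega),
    fun _ h => absurd h (by omega),
    fun _ _ => posRow43_tailAt47,
    fun h _ => absurd h (by omega)⟩

/-- The tail inequalities in dimension 48. -/
theorem midTails48 : MidTailsAt 47 :=
  ⟨negRow14_tailAt48,
    fun _ h => absurd h (by omega),
    fun _ h => absurd h (by omega),
    fun _ h => absurd h (by omega),
    fun _ h => absurd h (by omega),
    fun _ h => absurd h (by omega),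
    fun _ h => absurd h (by omega),
    fun _ _ => posRow43_tailAt48,
    fun h _ => absurd h (by omega)⟩

/-- The tail inequalities in dimension 49. -/
theorem midTails49 : MidTailsAt 48 :=
  ⟨negRow14_tailAt49,
    fun _ h => absurd h (by omega),
    fun _ h => absurd h (by omega),
    fun _ h => absurd h (by omega),
    fun _ h => absurd h (by omega),
    fun _ h => absurd h (by omega),
    fun _ h => absurd h (by omega),
    fun _ _ => posRow43_tailAt49,
    fun h _ => absurd h (by omega)⟩

/-- The tail inequalities in dimension 50. -/
theorem midTails50 : MidTailsAt 49 :=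
  ⟨negRow14_tailAt50,
    fun _ h => absurd h (by omega),
    fun _ h => absurd h (by omega),
    fun _ h => absurd h (by omega),
    fun _ h => absurd h (by omega),
    fun _ h => absurd h (by omega),
    fun _ h => absurd h (by omega),
    fun _ _ => posRow43_tailAt50,
    fun h _ => absurd h (by omega)⟩

/-- The tail inequalities in dimension 51. -/
theorem midTails51 : MidTailsAt 50 :=
  ⟨negRow14_tailAt51,
    fun _ h => absurd h (by omega),
    fun _ h => absurd h (by omega),
    fun _ h => absurd h (by omega),
    fun _ h => absurd h (by omega),
    fun _ h => absurd h (by omega),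
    fun _ h => absurd h (by omega),
    fun _ _ => posRow43_tailAt51,
    fun h _ => absurd h (by omega)⟩

/-- The tail inequalities in dimension 52. -/
theorem midTails52 : MidTailsAt 51 :=
  ⟨negRow14_tailAt52,
    fun _ h => absurd h (by omega),
    fun _ h => absurd h (by omega),
    fun _ h => absurd h (by omega),
    fun _ h => absurd h (by omega),
    fun _ h => absurd h (by omega),
    fun _ h => absurd h (by omega),
    fun _ _ => posRow43_tailAt52,
    fun h _ => absurd h (by omega)⟩

/-- The tail inequalities in dimension 53. -/
theorem midTails53 : MidTailsAt 52 :=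
  ⟨negRow14_tailAt53,
    fun _ h => absurd h (by omega),
    fun _ h => absurd h (by omega),
    fun _ h => absurd h (by omega),
    fun _ h => absurd h (by omega),
    fun _ h => absurd h (by omega),
    fun _ h => absurd h (by omega),
    fun _ _ => posRow43_tailAt53,
    fun h _ => absurd h (by omega)⟩

/-- The tail inequalities in dimension 54. -/
theorem midTails54 : MidTailsAt 53 :=
  ⟨negRow14_tailAt54,
    fun _ h => absurd h (by omega),
    fun _ h => absurd h (by omega),
    fun _ h => absurd h (by omega),
    fun _ h => absurd h (by omega),
    fun _ h => absurd h (by omega),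
    fun _ h => absurd h (by omega),
    fun _ _ => posRow43_tailAt54,
    fun h _ => absurd h (by omega)⟩

/-- The tail inequalities for `43 ≤ n ≤ 54`. -/
theorem midTails_43_54 (k : ℕ) (h₁ : 42 ≤ k) (h₂ : k ≤ 53) : MidTailsAt k := by
  interval_cases k
  · exact midTails43
  · exact midTails44
  · exact midTails45
  · exact midTails46
  · exact midTails47
  · exact midTails48
  · exact midTails49
  · exact midTails50
  · exact midTails51
  · exact midTails52
  · exact midTails53
  · exact midTails54

end Vale.Agent.P237.Quant
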