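import Vale.Agent.P237.Quant.MidAssembly
import Vale.Agent.P237.Quant.TailData.N55.Rows
import Vale.Agent.P237.Quant.TailData.N56.Rows
import Vale.Agent.P237.Quant.TailData.N57.Rows
import Vale.Agent.P237.Quant.TailData.N58.Rows
import Vale.Agent.P237.Quant.TailData.N59.Rows
import Vale.Agent.P237.Quant.TailData.N60.Rows
import Vale.Agent.P237.Quant.TailData.N61.Rows
import Vale.Agent.P237.Quant.TailData.N62.Rows
import Vale.Agent.P237.Quant.TailData.N63.Rows
import Vale.Agent.P237.Quant.TailData.N64.Rows
import Vale.Agent.P237.Quant.TailData.N65.Rows
import Vale.Agent.P237.Quant.TailData.N66.Rows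
import Vale.Agent.P237.Quant.TailData.N67.Rows
import Vale.Agent.P237.Quant.TailData.N68.Rows
import Vale.Agent.P237.Quant.TailData.N69.Rows

/-!
The tail inequalities in each dimension from 55 to 69. Generated.
-/

namespace Vale.Agent.P237.Quant

/-- The tail inequalities in dimension 55. -/
theorem midTails55 : MidTailsAt 54 :=
  ⟨negRow14_tailAt55,
    fun _ h => absurd h (by omega),
    fun _ h => absurd h (by omega),
    fun _ h => absurd h (by omega),
    fun _ h => absurd h (by omega),
    fun _ h => absurd h (by omega),
    fun _ h => absurd h (by omega),
    fun _ h => absurd h (by omega),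
    fun _ _ => posRow55_tailAt55⟩

/-- The tail inequalities in dimension 56. -/
theorem midTails56 : MidTailsAt 55 :=
  ⟨negRow14_tailAt56,
    fun _ h => absurd h (by omega),
    fun _ h => absurd h (by omega),
    fun _ h => absurd h (by omega),
    fun _ h => absurd h (by omega),
    fun _ h => absurd h (by omega),
    fun _ h => absurd h (by omega),
    fun _ h => absurd h (by omega),
    fun _ _ => posRow55_tailAt56⟩

/-- The tail inequalities in dimension 57. -/
theorem midTails57 : MidTailsAt 56 :=
  ⟨negRow14_tailAt57,
    fun _ h => absurd h (by omega),
    fun _ h => absurd h (by omega),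
    fun _ h => absurd h (by omega),
    fun _ h => absurd h (by omega),
    fun _ h => absurd h (by omega),
    fun _ h => absurd h (by omega),
    fun _ h => absurd h (by omega),
    fun _ _ => posRow55_tailAt57⟩

/-- The tail inequalities in dimension 58. -/
theorem midTails58 : MidTailsAt 57 :=
  ⟨negRow14_tailAt58,
    fun _ h => absurd h (by omega),
    fun _ h => absurd h (by omega),
    fun _ h => absurd h (by omega),
    fun _ h => absurd h (by omega),
    fun _ h => absurd h (by omega),
    fun _ h => absurd h (by omega),
    fun _ h => absurd h (by omega),
    fun _ _ => posRow55_tailAt58⟩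

/-- The tail inequalities in dimension 59. -/
theorem midTails59 : MidTailsAt 58 :=
  ⟨negRow14_tailAt59,
    fun _ h => absurd h (by omega),
    fun _ h => absurd h (by omega),
    fun _ h => absurd h (by omega),
    fun _ h => absurd h (by omega),
    fun _ h => absurd h (by omega),
    fun _ h => absurd h (by omega),
    fun _ h => absurd h (by omega),
    fun _ _ => posRow55_tailAt59⟩

/-- The tail inequalities in dimension 60. -/
theorem midTails60 : MidTailsAt 59 :=
  ⟨negRow14_tailAt60,
    fun _ h => absurd h (by omega),
    fun _ h => absurd h (by omega),
    fun _ h => absurd h (by omega),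
    fun _ h => absurd h (by omega),
    fun _ h => absurd h (by omega),
    fun _ h => absurd h (by omega),
    fun _ h => absurd h (by omega),
    fun _ _ => posRow55_tailAt60⟩

/-- The tail inequalities in dimension 61. -/
theorem midTails61 : MidTailsAt 60 :=
  ⟨negRow14_tailAt61,
    fun _ h => absurd h (by omega),
    fun _ h => absurd h (by omega),
    fun _ h => absurd h (by omega),
    fun _ h => absurd h (by omega),
    fun _ h => absurd h (by omega),
    fun _ h => absurd h (by omega),
    fun _ h => absurd h (by omega),
    fun _ _ => posRow55_tailAt61⟩

/-- The tail inequalities in dimension 62. -/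
theorem midTails62 : MidTailsAt 61 :=
  ⟨negRow14_tailAt62,
    fun _ h => absurd h (by omega),
    fun _ h => absurd h (by omega),
    fun _ h => absurd h (by omega),
    fun _ h => absurd h (by omega),
    fun _ h => absurd h (by omega),
    fun _ h => absurd h (by omega),
    fun _ h => absurd h (by omega),
    fun _ _ => posRow55_tailAt62⟩

/-- The tail inequalities in dimension 63. -/
theorem midTails63 : MidTailsAt 62 :=
  ⟨negRow14_tailAt63,
    fun _ h => absurd h (by omega),
    fun _ h => absurd h (by omega),
    fun _ h => absurd h (by omega),
    fun _ h => absurd h (by omega),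
    fun _ h => absurd h (by omega),
    fun _ h => absurd h (by omega),
    fun _ h => absurd h (by omega),
    fun _ _ => posRow55_tailAt63⟩

/-- The tail inequalities in dimension 64. -/
theorem midTails64 : MidTailsAt 63 :=
  ⟨negRow14_tailAt64,
    fun _ h => absurd h (by omega),
    fun _ h => absurd h (by omega),
    fun _ h => absurd h (by omega),
    fun _ h => absurd h (by omega),
    fun _ h => absurd h (by omega),
    fun _ h => absurd h (by omega),
    fun _ h => absurd h (by omega),
    fun _ _ => posRow55_tailAt64⟩

/-- The tail inequalities in dimension 65. -/
theorem midTails65 : MidTailsAt 64 :=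
  ⟨negRow14_tailAt65,
    fun _ h => absurd h (by omega),
    fun _ h => absurd h (by omega),
    fun _ h => absurd h (by omega),
    fun _ h => absurd h (by omega),
    fun _ h => absurd h (by omega),
    fun _ h => absurd h (by omega),
    fun _ h => absurd h (by omega),
    fun _ _ => posRow55_tailAt65⟩

/-- The tail inequalities in dimension 66. -/
theorem midTails66 : MidTailsAt 65 :=
  ⟨negRow14_tailAt66,
    fun _ h => absurd h (by omega),
    fun _ h => absurd h (by omega),
    fun _ h => absurd h (by omega),
    fun _ h => absurd h (by omega),
    fun _ h => absurd h (by omega),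
    fun _ h => absurd h (by omega),
    fun _ h => absurd h (by omega),
    fun _ _ => posRow55_tailAt66⟩

/-- The tail inequalities in dimension 67. -/
theorem midTails67 : MidTailsAt 66 :=
  ⟨negRow14_tailAt67,
    fun _ h => absurd h (by omega),
    fun _ h => absurd h (by omega),
    fun _ h => absurd h (by omega),
    fun _ h => absurd h (by omega),
    fun _ h => absurd h (by omega),
    fun _ h => absurd h (by omega),
    fun _ h => absurd h (by omega),
    fun _ _ => posRow55_tailAt67⟩

/-- The tail inequalities in dimension 68. -/
theorem midTails68 : MidTailsAt 67 :=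
  ⟨negRow14_tailAt68,
    fun _ h => absurd h (by omega),
    fun _ h => absurd h (by omega),
    fun _ h => absurd h (by omega),
    fun _ h => absurd h (by omega),
    fun _ h => absurd h (by omega),
    fun _ h => absurd h (by omega),
    fun _ h => absurd h (by omega),
    fun _ _ => posRow55_tailAt68⟩

/-- The tail inequalities in dimension 69. -/
theorem midTails69 : MidTailsAt 68 :=
  ⟨negRow14_tailAt69,
    fun _ h => absurd h (by omega),
    fun _ h => absurd h (by omega),
    fun _ h => absurd h (by omega),
    fun _ h => absurd h (by omega),
    fun _ h => absurd h (by omega),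
    fun _ h => absurd h (by omega),
    fun _ h => absurd h (by omega),
    fun _ _ => posRow55_tailAt69⟩

/-- The tail inequalities for `55 ≤ n ≤ 69`. -/
theorem midTails_55_69 (k : ℕ) (h₁ : 54 ≤ k) (h₂ : k ≤ 68) : MidTailsAt k := by
  interval_cases k
  · exact midTails55
  · exact midTails56
  · exact midTails57
  · exact midTails58
  · exact midTails59
  · exact midTails60
  · exact midTails61
  · exact midTails62
  · exact midTails63
  · exact midTails64
  · exact midTails65
  · exact midTails66
  · exact midTails67
  · exact midTails68
  · exact midTails69

end Vale.Agent.P237.Quant
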