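import Vale.Agent.P237.Quant.MidAssembly
import Vale.Agent.P237.Quant.TailData.N70.Rows
import Vale.Agent.P237.Quant.TailData.N71.Rows
import Vale.Agent.P237.Quant.TailData.N72.Rows
import Vale.Agent.P237.Quant.TailData.N73.Rows
import Vale.Agent.P237.Quant.TailData.N74.Rows
import Vale.Agent.P237.Quant.TailData.N75.Rows
import Vale.Agent.P237.Quant.TailData.N76.Rows
import Vale.Agent.P237.Quant.TailData.N77.Rows
import Vale.Agent.P237.Quant.TailData.N78.Rows
import Vale.Agent.P237.Quant.TailData.N79.Rows
import Vale.Agent.P237.Quant.TailData.N80.Rows
import Vale.Agent.P237.Quant.TailData.N81.Rows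
import Vale.Agent.P237.Quant.TailData.N82.Rows
import Vale.Agent.P237.Quant.TailData.N83.Rows
import Vale.Agent.P237.Quant.TailData.N84.Rows

/-!
The tail inequalities in each dimension from 70 to 84. Generated.
-/

namespace Vale.Agent.P237.Quant

/-- The tail inequalities in dimension 70. -/
theorem midTails70 : MidTailsAt 69 :=
  ⟨negRow14_tailAt70,
    fun _ h => absurd h (by omega),
    fun _ h => absurd h (by omega),
    fun _ h => absurd h (by omega),
    fun _ h => absurd h (by omega),
    fun _ h => absurd h (by omega),
    fun _ h => absurd h (by omega),
    fun _ h => absurd h (by omega),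
    fun _ _ => posRow55_tailAt70⟩

/-- The tail inequalities in dimension 71. -/
theorem midTails71 : MidTailsAt 70 :=
  ⟨negRow14_tailAt71,
    fun _ h => absurd h (by omega),
    fun _ h => absurd h (by omega),
    fun _ h => absurd h (by omega),
    fun _ h => absurd h (by omega),
    fun _ h => absurd h (by omega),
    fun _ h => absurd h (by omega),
    fun _ h => absurd h (by omega),
    fun _ _ => posRow55_tailAt71⟩

/-- The tail inequalities in dimension 72. -/
theorem midTails72 : MidTailsAt 71 :=
  ⟨negRow14_tailAt72,
    fun _ h => absurd h (by omega),
    fun _ h => absurd h (by omega),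
    fun _ h => absurd h (by omega),
    fun _ h => absurd h (by omega),
    fun _ h => absurd h (by omega),
    fun _ h => absurd h (by omega),
    fun _ h => absurd h (by omega),
    fun _ _ => posRow55_tailAt72⟩

/-- The tail inequalities in dimension 73. -/
theorem midTails73 : MidTailsAt 72 :=
  ⟨negRow14_tailAt73,
    fun _ h => absurd h (by omega),
    fun _ h => absurd h (by omega),
    fun _ h => absurd h (by omega),
    fun _ h => absurd h (by omega),
    fun _ h => absurd h (by omega),
    fun _ h => absurd h (by omega),
    fun _ h => absurd h (by omega),
    fun _ _ => posRow55_tailAt73⟩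

/-- The tail inequalities in dimension 74. -/
theorem midTails74 : MidTailsAt 73 :=
  ⟨negRow14_tailAt74,
    fun _ h => absurd h (by omega),
    fun _ h => absurd h (by omega),
    fun _ h => absurd h (by omega),
    fun _ h => absurd h (by omega),
    fun _ h => absurd h (by omega),
    fun _ h => absurd h (by omega),
    fun _ h => absurd h (by omega),
    fun _ _ => posRow55_tailAt74⟩

/-- The tail inequalities in dimension 75. -/
theorem midTails75 : MidTailsAt 74 :=
  ⟨negRow14_tailAt75,
    fun _ h => absurd h (by omega),
    fun _ h => absurd h (by omega),
    fun _ h => absurd h (by omega),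
    fun _ h => absurd h (by omega),
    fun _ h => absurd h (by omega),
    fun _ h => absurd h (by omega),
    fun _ h => absurd h (by omega),
    fun _ _ => posRow55_tailAt75⟩

/-- The tail inequalities in dimension 76. -/
theorem midTails76 : MidTailsAt 75 :=
  ⟨negRow14_tailAt76,
    fun _ h => absurd h (by omega),
    fun _ h => absurd h (by omega),
    fun _ h => absurd h (by omega),
    fun _ h => absurd h (by omega),
    fun _ h => absurd h (by omega),
    fun _ h => absurd h (by omega),
    fun _ h => absurd h (by omega),
    fun _ _ => posRow55_tailAt76⟩

/-- The tail inequalities in dimension 77. -/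
theorem midTails77 : MidTailsAt 76 :=
  ⟨negRow14_tailAt77,
    fun _ h => absurd h (by omega),
    fun _ h => absurd h (by omega),
    fun _ h => absurd h (by omega),
    fun _ h => absurd h (by omega),
    fun _ h => absurd h (by omega),
    fun _ h => absurd h (by omega),
    fun _ h => absurd h (by omega),
    fun _ _ => posRow55_tailAt77⟩

/-- The tail inequalities in dimension 78. -/
theorem midTails78 : MidTailsAt 77 :=
  ⟨negRow14_tailAt78,
    fun _ h => absurd h (by omega),
    fun _ h => absurd h (by omega),
    fun _ h => absurd h (by omega),
    fun _ h => absurd h (by omega),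
    fun _ h => absurd h (by omega),
    fun _ h => absurd h (by omega),
    fun _ h => absurd h (by omega),
    fun _ _ => posRow55_tailAt78⟩

/-- The tail inequalities in dimension 79. -/
theorem midTails79 : MidTailsAt 78 :=
  ⟨negRow14_tailAt79,
    fun _ h => absurd h (by omega),
    fun _ h => absurd h (by omega),
    fun _ h => absurd h (by omega),
    fun _ h => absurd h (by omega),
    fun _ h => absurd h (by omega),
    fun _ h => absurd h (by omega),
    fun _ h => absurd h (by omega),
    fun _ _ => posRow55_tailAt79⟩

/-- The tail inequalities in dimension 80. -/
theorem midTails80 : MidTailsAt 79 :=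
  ⟨negRow14_tailAt80,
    fun _ h => absurd h (by omega),
    fun _ h => absurd h (by omega),
    fun _ h => absurd h (by omega),
    fun _ h => absurd h (by omega),
    fun _ h => absurd h (by omega),
    fun _ h => absurd h (by omega),
    fun _ h => absurd h (by omega),
    fun _ _ => posRow55_tailAt80⟩

/-- The tail inequalities in dimension 81. -/
theorem midTails81 : MidTailsAt 80 :=
  ⟨negRow14_tailAt81,
    fun _ h => absurd h (by omega),
    fun _ h => absurd h (by omega),
    fun _ h => absurd h (by omega),
    fun _ h => absurd h (by omega),
    fun _ h => absurd h (by omega),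
    fun _ h => absurd h (by omega),
    fun _ h => absurd h (by omega),
    fun _ _ => posRow55_tailAt81⟩

/-- The tail inequalities in dimension 82. -/
theorem midTails82 : MidTailsAt 81 :=
  ⟨negRow14_tailAt82,
    fun _ h => absurd h (by omega),
    fun _ h => absurd h (by omega),
    fun _ h => absurd h (by omega),
    fun _ h => absurd h (by omega),
    fun _ h => absurd h (by omega),
    fun _ h => absurd h (by omega),
    fun _ h => absurd h (by omega),
    fun _ _ => posRow55_tailAt82⟩

/-- The tail inequalities in dimension 83. -/
theorem midTails83 : MidTailsAt 82 :=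
  ⟨negRow14_tailAt83,
    fun _ h => absurd h (by omega),
    fun _ h => absurd h (by omega),
    fun _ h => absurd h (by omega),
    fun _ h => absurd h (by omega),
    fun _ h => absurd h (by omega),
    fun _ h => absurd h (by omega),
    fun _ h => absurd h (by omega),
    fun _ _ => posRow55_tailAt83⟩

/-- The tail inequalities in dimension 84. -/
theorem midTails84 : MidTailsAt 83 :=
  ⟨negRow14_tailAt84,
    fun _ h => absurd h (by omega),
    fun _ h => absurd h (by omega),
    fun _ h => absurd h (by omega),
    fun _ h => absurd h (by omega),
    fun _ h => absurd h (by omega),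
    fun _ h => absurd h (by omega),
    fun _ h => absurd h (by omega),
    fun _ _ => posRow55_tailAt84⟩

/-- The tail inequalities for `70 ≤ n ≤ 84`. -/
theorem midTails_70_84 (k : ℕ) (h₁ : 69 ≤ k) (h₂ : k ≤ 83) : MidTailsAt k := by
  interval_cases k
  · exact midTails70
  · exact midTails71
  · exact midTails72
  · exact midTails73
  · exact midTails74
  · exact midTails75
  · exact midTails76
  · exact midTails77
  · exact midTails78
  · exact midTails79
  · exact midTails80
  · exact midTails81
  · exact midTails82
  · exact midTails83
  · exact midTails84

end Vale.Agent.P237.Quant
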