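import Vale.Agent.P237.Quant.MidAssembly
import Vale.Agent.P237.Quant.TailData.N85.Rows
import Vale.Agent.P237.Quant.TailData.N86.Rows
import Vale.Agent.P237.Quant.TailData.N87.Rows
import Vale.Agent.P237.Quant.TailData.N88.Rows
import Vale.Agent.P237.Quant.TailData.N89.Rows
import Vale.Agent.P237.Quant.TailData.N90.Rows
import Vale.Agent.P237.Quant.TailData.N91.Rows
import Vale.Agent.P237.Quant.TailData.N92.Rows
import Vale.Agent.P237.Quant.TailData.N93.Rows
import Vale.Agent.P237.Quant.TailData.N94.Rows
import Vale.Agent.P237.Quant.TailData.N95.Rows
import Vale.Agent.P237.Quant.TailData.N96.Rows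
import Vale.Agent.P237.Quant.TailData.N97.Rows
import Vale.Agent.P237.Quant.TailData.N98.Rows
import Vale.Agent.P237.Quant.TailData.N99.Rows

/-!
The tail inequalities in each dimension from 85 to 99. Generated.
-/

namespace Vale.Agent.P237.Quant

/-- The tail inequalities in dimension 85. -/
theorem midTails85 : MidTailsAt 84 :=
  ⟨negRow14_tailAt85,
    fun _ h => absurd h (by omega),
    fun _ h => absurd h (by omega),
    fun _ h => absurd h (by omega),
    fun _ h => absurd h (by omega),
    fun _ h => absurd h (by omega),
    fun _ h => absurd h (by omega),
    fun _ h => absurd h (by omega),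
    fun _ _ => posRow55_tailAt85⟩

/-- The tail inequalities in dimension 86. -/
theorem midTails86 : MidTailsAt 85 :=
  ⟨negRow14_tailAt86,
    fun _ h => absurd h (by omega),
    fun _ h => absurd h (by omega),
    fun _ h => absurd h (by omega),
    fun _ h => absurd h (by omega),
    fun _ h => absurd h (by omega),
    fun _ h => absurd h (by omega),
    fun _ h => absurd h (by omega),
    fun _ _ => posRow55_tailAt86⟩

/-- The tail inequalities in dimension 87. -/
theorem midTails87 : MidTailsAt 86 :=
  ⟨negRow14_tailAt87,
    fun _ h => absurd h (by omega),
    fun _ h => absurd h (by omega),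
    fun _ h => absurd h (by omega),
    fun _ h => absurd h (by omega),
    fun _ h => absurd h (by omega),
    fun _ h => absurd h (by omega),
    fun _ h => absurd h (by omega),
    fun _ _ => posRow55_tailAt87⟩

/-- The tail inequalities in dimension 88. -/
theorem midTails88 : MidTailsAt 87 :=
  ⟨negRow14_tailAt88,
    fun _ h => absurd h (by omega),
    fun _ h => absurd h (by omega),
    fun _ h => absurd h (by omega),
    fun _ h => absurd h (by omega),
    fun _ h => absurd h (by omega),
    fun _ h => absurd h (by omega),
    fun _ h => absurd h (by omega),
    fun _ _ => posRow55_tailAt88⟩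

/-- The tail inequalities in dimension 89. -/
theorem midTails89 : MidTailsAt 88 :=
  ⟨negRow14_tailAt89,
    fun _ h => absurd h (by omega),
    fun _ h => absurd h (by omega),
    fun _ h => absurd h (by omega),
    fun _ h => absurd h (by omega),
    fun _ h => absurd h (by omega),
    fun _ h => absurd h (by omega),
    fun _ h => absurd h (by omega),
    fun _ _ => posRow55_tailAt89⟩

/-- The tail inequalities in dimension 90. -/
theorem midTails90 : MidTailsAt 89 :=
  ⟨negRow14_tailAt90,
    fun _ h => absurd h (by omega),
    fun _ h => absurd h (by omega),
    fun _ h => absurd h (by omega),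
    fun _ h => absurd h (by omega),
    fun _ h => absurd h (by omega),
    fun _ h => absurd h (by omega),
    fun _ h => absurd h (by omega),
    fun _ _ => posRow55_tailAt90⟩

/-- The tail inequalities in dimension 91. -/
theorem midTails91 : MidTailsAt 90 :=
  ⟨negRow14_tailAt91,
    fun _ h => absurd h (by omega),
    fun _ h => absurd h (by omega),
    fun _ h => absurd h (by omega),
    fun _ h => absurd h (by omega),
    fun _ h => absurd h (by omega),
    fun _ h => absurd h (by omega),
    fun _ h => absurd h (by omega),
    fun _ _ => posRow55_tailAt91⟩

/-- The tail inequalities in dimension 92. -/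
theorem midTails92 : MidTailsAt 91 :=
  ⟨negRow14_tailAt92,
    fun _ h => absurd h (by omega),
    fun _ h => absurd h (by omega),
    fun _ h => absurd h (by omega),
    fun _ h => absurd h (by omega),
    fun _ h => absurd h (by omega),
    fun _ h => absurd h (by omega),
    fun _ h => absurd h (by omega),
    fun _ _ => posRow55_tailAt92⟩

/-- The tail inequalities in dimension 93. -/
theorem midTails93 : MidTailsAt 92 :=
  ⟨negRow14_tailAt93,
    fun _ h => absurd h (by omega),
    fun _ h => absurd h (by omega),
    fun _ h => absurd h (by omega),
    fun _ h => absurd h (by omega),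
    fun _ h => absurd h (by omega),
    fun _ h => absurd h (by omega),
    fun _ h => absurd h (by omega),
    fun _ _ => posRow55_tailAt93⟩

/-- The tail inequalities in dimension 94. -/
theorem midTails94 : MidTailsAt 93 :=
  ⟨negRow14_tailAt94,
    fun _ h => absurd h (by omega),
    fun _ h => absurd h (by omega),
    fun _ h => absurd h (by omega),
    fun _ h => absurd h (by omega),
    fun _ h => absurd h (by omega),
    fun _ h => absurd h (by omega),
    fun _ h => absurd h (by omega),
    fun _ _ => posRow55_tailAt94⟩

/-- The tail inequalities in dimension 95. -/
theorem midTails95 : MidTailsAt 94 :=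
  ⟨negRow14_tailAt95,
    fun _ h => absurd h (by omega),
    fun _ h => absurd h (by omega),
    fun _ h => absurd h (by omega),
    fun _ h => absurd h (by omega),
    fun _ h => absurd h (by omega),
    fun _ h => absurd h (by omega),
    fun _ h => absurd h (by omega),
    fun _ _ => posRow55_tailAt95⟩

/-- The tail inequalities in dimension 96. -/
theorem midTails96 : MidTailsAt 95 :=
  ⟨negRow14_tailAt96,
    fun _ h => absurd h (by omega),
    fun _ h => absurd h (by omega),
    fun _ h => absurd h (by omega),
    fun _ h => absurd h (by omega),
    fun _ h => absurd h (by omega),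
    fun _ h => absurd h (by omega),
    fun _ h => absurd h (by omega),
    fun _ _ => posRow55_tailAt96⟩

/-- The tail inequalities in dimension 97. -/
theorem midTails97 : MidTailsAt 96 :=
  ⟨negRow14_tailAt97,
    fun _ h => absurd h (by omega),
    fun _ h => absurd h (by omega),
    fun _ h => absurd h (by omega),
    fun _ h => absurd h (by omega),
    fun _ h => absurd h (by omega),
    fun _ h => absurd h (by omega),
    fun _ h => absurd h (by omega),
    fun _ _ => posRow55_tailAt97⟩

/-- The tail inequalities in dimension 98. -/
theorem midTails98 : MidTailsAt 97 :=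
  ⟨negRow14_tailAt98,
    fun _ h => absurd h (by omega),
    fun _ h => absurd h (by omega),
    fun _ h => absurd h (by omega),
    fun _ h => absurd h (by omega),
    fun _ h => absurd h (by omega),
    fun _ h => absurd h (by omega),
    fun _ h => absurd h (by omega),
    fun _ _ => posRow55_tailAt98⟩

/-- The tail inequalities in dimension 99. -/
theorem midTails99 : MidTailsAt 98 :=
  ⟨negRow14_tailAt99,
    fun _ h => absurd h (by omega),
    fun _ h => absurd h (by omega),
    fun _ h => absurd h (by omega),
    fun _ h => absurd h (by omega),
    fun _ h => absurd h (by omega),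
    fun _ h => absurd h (by omega),
    fun _ h => absurd h (by omega),
    fun _ _ => posRow55_tailAt99⟩

/-- The tail inequalities for `85 ≤ n ≤ 99`. -/
theorem midTails_85_99 (k : ℕ) (h₁ : 84 ≤ k) (h₂ : k ≤ 98) : MidTailsAt k := by
  interval_cases k
  · exact midTails85
  · exact midTails86
  · exact midTails87
  · exact midTails88
  · exact midTails89
  · exact midTails90
  · exact midTails91
  · exact midTails92
  · exact midTails93
  · exact midTails94
  · exact midTails95
  · exact midTails96
  · exact midTails97
  · exact midTails98
  · exact midTails99

end Vale.Agent.P237.Quant
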