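import Vale.Agent.P237.Quant.MidAssembly
import Vale.Agent.P237.Quant.TailData.N14.Rows
import Vale.Agent.P237.Quant.TailData.N15.Rows
import Vale.Agent.P237.Quant.TailData.N16.Rows
import Vale.Agent.P237.Quant.TailData.N17.Rows
import Vale.Agent.P237.Quant.TailData.N18.Rows
import Vale.Agent.P237.Quant.TailData.N19.Rows
import Vale.Agent.P237.Quant.TailData.N20.Rows
import Vale.Agent.P237.Quant.TailData.N21.Rows
import Vale.Agent.P237.Quant.TailData.N22.Rows
import Vale.Agent.P237.Quant.TailData.N23.Rows
import Vale.Agent.P237.Quant.TailData.N24.Rows
import Vale.Agent.P237.Quant.TailData.N25.Rows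
import Vale.Agent.P237.Quant.TailData.N26.Rows
import Vale.Agent.P237.Quant.TailData.N27.Rows
import Vale.Agent.P237.Quant.TailData.N28.Rows
import Vale.Agent.P237.Quant.TailData.N29.Rows

/-!
The tail inequalities in each dimension from 14 to 29. Generated.
-/

namespace Vale.Agent.P237.Quant

/-- The tail inequalities in dimension 14. -/
theorem midTails14 : MidTailsAt 13 :=
  ⟨negRow14_tailAt14,
    fun _ _ => posRow14_tailAt14,
    fun h _ => absurd h (by omega),
    fun h _ => absurd h (by omega),
    fun h _ => absurd h (by omega),
    fun h _ => absurd h (by omega),
    fun h _ => absurd h (by omega),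
    fun h _ => absurd h (by omega),
    fun h _ => absurd h (by omega)⟩

/-- The tail inequalities in dimension 15. -/
theorem midTails15 : MidTailsAt 14 :=
  ⟨negRow14_tailAt15,
    fun _ _ => posRow14_tailAt15,
    fun h _ => absurd h (by omega),
    fun h _ => absurd h (by omega),
    fun h _ => absurd h (by omega),
    fun h _ => absurd h (by omega),
    fun h _ => absurd h (by omega),
    fun h _ => absurd h (by omega),
    fun h _ => absurd h (by omega)⟩

/-- The tail inequalities in dimension 16. -/
theorem midTails16 : MidTailsAt 15 :=
  ⟨negRow14_tailAt16,
    fun _ h => absurd h (by omega),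
    fun _ _ => posRow16_tailAt16,
    fun h _ => absurd h (by omega),
    fun h _ => absurd h (by omega),
    fun h _ => absurd h (by omega),
    fun h _ => absurd h (by omega),
    fun h _ => absurd h (by omega),
    fun h _ => absurd h (by omega)⟩

/-- The tail inequalities in dimension 17. -/
theorem midTails17 : MidTailsAt 16 :=
  ⟨negRow14_tailAt17,
    fun _ h => absurd h (by omega),
    fun _ _ => posRow16_tailAt17,
    fun h _ => absurd h (by omega),
    fun h _ => absurd h (by omega),
    fun h _ => absurd h (by omega),
    fun h _ => absurd h (by omega),
    fun h _ => absurd h (by omega),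
    fun h _ => absurd h (by omega)⟩

/-- The tail inequalities in dimension 18. -/
theorem midTails18 : MidTailsAt 17 :=
  ⟨negRow14_tailAt18,
    fun _ h => absurd h (by omega),
    fun _ _ => posRow16_tailAt18,
    fun h _ => absurd h (by omega),
    fun h _ => absurd h (by omega),
    fun h _ => absurd h (by omega),
    fun h _ => absurd h (by omega),
    fun h _ => absurd h (by omega),
    fun h _ => absurd h (by omega)⟩

/-- The tail inequalities in dimension 19. -/
theorem midTails19 : MidTailsAt 18 :=
  ⟨negRow14_tailAt19,
    fun _ h => absurd h (by omega),
    fun _ _ => posRow16_tailAt19,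
    fun h _ => absurd h (by omega),
    fun h _ => absurd h (by omega),
    fun h _ => absurd h (by omega),
    fun h _ => absurd h (by omega),
    fun h _ => absurd h (by omega),
    fun h _ => absurd h (by omega)⟩

/-- The tail inequalities in dimension 20. -/
theorem midTails20 : MidTailsAt 19 :=
  ⟨negRow14_tailAt20,
    fun _ h => absurd h (by omega),
    fun _ h => absurd h (by omega),
    fun _ _ => posRow20_tailAt20,
    fun h _ => absurd h (by omega),
    fun h _ => absurd h (by omega),
    fun h _ => absurd h (by omega),
    fun h _ => absurd h (by omega),
    fun h _ => absurd h (by omega)⟩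

/-- The tail inequalities in dimension 21. -/
theorem midTails21 : MidTailsAt 20 :=
  ⟨negRow14_tailAt21,
    fun _ h => absurd h (by omega),
    fun _ h => absurd h (by omega),
    fun _ _ => posRow20_tailAt21,
    fun h _ => absurd h (by omega),
    fun h _ => absurd h (by omega),
    fun h _ => absurd h (by omega),
    fun h _ => absurd h (by omega),
    fun h _ => absurd h (by omega)⟩

/-- The tail inequalities in dimension 22. -/
theorem midTails22 : MidTailsAt 21 :=
  ⟨negRow14_tailAt22,
    fun _ h => absurd h (by omega),
    fun _ h => absurd h (by omega),
    fun _ _ => posRow20_tailAt22,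
    fun h _ => absurd h (by omega),
    fun h _ => absurd h (by omega),
    fun h _ => absurd h (by omega),
    fun h _ => absurd h (by omega),
    fun h _ => absurd h (by omega)⟩

/-- The tail inequalities in dimension 23. -/
theorem midTails23 : MidTailsAt 22 :=
  ⟨negRow14_tailAt23,
    fun _ h => absurd h (by omega),
    fun _ h => absurd h (by omega),
    fun _ _ => posRow20_tailAt23,
    fun h _ => absurd h (by omega),
    fun h _ => absurd h (by omega),
    fun h _ => absurd h (by omega),
    fun h _ => absurd h (by omega),
    fun h _ => absurd h (by omega)⟩

/-- The tail inequalities in dimension 24. -/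
theorem midTails24 : MidTailsAt 23 :=
  ⟨negRow14_tailAt24,
    fun _ h => absurd h (by omega),
    fun _ h => absurd h (by omega),
    fun _ _ => posRow20_tailAt24,
    fun h _ => absurd h (by omega),
    fun h _ => absurd h (by omega),
    fun h _ => absurd h (by omega),
    fun h _ => absurd h (by omega),
    fun h _ => absurd h (by omega)⟩

/-- The tail inequalities in dimension 25. -/
theorem midTails25 : MidTailsAt 24 :=
  ⟨negRow14_tailAt25,
    fun _ h => absurd h (by omega),
    fun _ h => absurd h (by omega),
    fun _ h => absurd h (by omega),
    fun _ _ => posRow25_tailAt25,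
    fun h _ => absurd h (by omega),
    fun h _ => absurd h (by omega),
    fun h _ => absurd h (by omega),
    fun h _ => absurd h (by omega)⟩

/-- The tail inequalities in dimension 26. -/
theorem midTails26 : MidTailsAt 25 :=
  ⟨negRow14_tailAt26,
    fun _ h => absurd h (by omega),
    fun _ h => absurd h (by omega),
    fun _ h => absurd h (by omega),
    fun _ _ => posRow25_tailAt26,
    fun h _ => absurd h (by omega),
    fun h _ => absurd h (by omega),
    fun h _ => absurd h (by omega),
    fun h _ => absurd h (by omega)⟩

/-- The tail inequalities in dimension 27. -/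
theorem midTails27 : MidTailsAt 26 :=
  ⟨negRow14_tailAt27,
    fun _ h => absurd h (by omega),
    fun _ h => absurd h (by omega),
    fun _ h => absurd h (by omega),
    fun _ _ => posRow25_tailAt27,
    fun h _ => absurd h (by omega),
    fun h _ => absurd h (by omega),
    fun h _ => absurd h (by omega),
    fun h _ => absurd h (by omega)⟩

/-- The tail inequalities in dimension 28. -/
theorem midTails28 : MidTailsAt 27 :=
  ⟨negRow14_tailAt28,
    fun _ h => absurd h (by omega),
    fun _ h => absurd h (by omega),
    fun _ h => absurd h (by omega),
    fun _ _ => posRow25_tailAt28,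
    fun h _ => absurd h (by omega),
    fun h _ => absurd h (by omega),
    fun h _ => absurd h (by omega),
    fun h _ => absurd h (by omega)⟩

/-- The tail inequalities in dimension 29. -/
theorem midTails29 : MidTailsAt 28 :=
  ⟨negRow14_tailAt29,
    fun _ h => absurd h (by omega),
    fun _ h => absurd h (by omega),
    fun _ h => absurd h (by omega),
    fun _ _ => posRow25_tailAt29,
    fun h _ => absurd h (by omega),
    fun h _ => absurd h (by omega),
    fun h _ => absurd h (by omega),
    fun h _ => absurd h (by omega)⟩

/-- The tail inequalities for `14 ≤ n ≤ 29`. -/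
theorem midTails_14_29 (k : ℕ) (h₁ : 13 ≤ k) (h₂ : k ≤ 28) : MidTailsAt k := by
  interval_cases k
  · exact midTails14
  · exact midTails15
  · exact midTails16
  · exact midTails17
  · exact midTails18
  · exact midTails19
  · exact midTails20
  · exact midTails21
  · exact midTails22
  · exact midTails23
  · exact midTails24
  · exact midTails25
  · exact midTails26
  · exact midTails27
  · exact midTails28
  · exact midTails29

end Vale.Agent.P237.Quant
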